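import Vale.Agent.P092.H736.Mx.LatX
import Vale.Agent.P092.UN.NfV

/-!
P092 (helper932): the theorem for the class `UN.LatticeX`, from the literal `MixStmt` and the theorem for
the class `UN.LatticeP`.
-/

set_option linter.all false

namespace Vale.Agent.P092.H932

open Vale.Agent.P092.H259.Mx (MixStmt)

/-- **Q1 for the lattices `LatticeX`**, all amplifications, from `MixStmt` and the class `LatticeP`. -/
theorem superAll_latticeX_of (mix : MixStmt)
    (hP : ∀ (Γ : Type) [Group Γ], UN.LatticeP Γ → UN.SuperAll Γ)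
    (Γ : Type) [Group Γ] (h : UN.LatticeX Γ) : UN.SuperAll Γ := by
  obtain ⟨hicc, J, j1, G, g1, g2, E, e1, e2, f, i, h1, h2, h3, h4, h5, hT, hd⟩ := h
  exact H736.Mx.superAll_prodX mix hP hicc f h2 h3 i h4 h5
    (hT.imp UN.propT_of_hasT fun h => h.imp_left UN.kazT_of_hasTC)
    fun j => (hd j).imp UN.typeP_of_typeZ fun h => ⟨h.1.imp_right UN.typeX_iff.1, h.2⟩

end Vale.Agent.P092.H932
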